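import Vale.Agent.P047.Main

open Vale.Agent.P047

theorem Vale.Agent.Results.P047.SqrtFails.result :
    (∀ C : ℝ, ∃ n, 1 ≤ n ∧ ∃ f : (Fin n → Bool) → ℝ, (∀ x, f x = 1 ∨ f x = -1) ∧
      C * Real.sqrt (deg f) < ∑ i, fhat f {i}) ∧
    ∃ ε c : ℝ, 0 < ε ∧ 0 < c ∧ ∀ d : ℕ, 1 ≤ d → ∃ n, 1 ≤ n ∧
      ∃ f : (Fin n → Bool) → ℝ, (∀ x, f x = 1 ∨ f x = -1) ∧ deg f ≤ d ∧
        c * (d : ℝ) ^ (1 / 2 + ε) ≤ ∑ i, fhat f {i} := by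
  refine ⟨fun C => ?_, growth⟩
  obtain ⟨ε, c, hε, hc, h⟩ := growth
  obtain ⟨d, h1, h2⟩ := ((((tendsto_rpow_atTop hε).comp
    tendsto_natCast_atTop_atTop).eventually_gt_atTop (|C| / c)).and
    (Filter.eventually_ge_atTop 1)).exists
  obtain ⟨n, hn, f, f1, f2, f3⟩ := h d h2
  refine ⟨n, hn, f, f1, lt_of_lt_of_le ?_ f3⟩
  have hd : (0 : ℝ) < d := by exact_mod_cast h2
  rw [Function.comp_apply, div_lt_iff₀' hc] at h1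
  rw [Real.rpow_add hd, ← Real.sqrt_eq_rpow, mul_comm (Real.sqrt d), ← mul_assoc]
  refine lt_of_le_of_lt ?_ (mul_lt_mul_of_pos_right h1 (Real.sqrt_pos.2 hd))
  exact mul_le_mul (le_abs_self C) (Real.sqrt_le_sqrt (by exact_mod_cast f2)) (Real.sqrt_nonneg _)
    (abs_nonneg C)
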